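import Vale.Agent.P300.H839.Good

/-!
# P300, block [CURVE], part 5: label form

The entire curves `e j s` in `X` and their lifts `E j s` to the coverings `Z → X` are given, indexed
by labels; the curves are closed up at infinity here, and the orbits of the node labels give the
chain classes.
-/

open Topology Filter Set
open scoped Manifold ContDiff

namespace Vale.Agent.P300.H839

variable {X Y : Type*} [TopologicalSpace X] [TopologicalSpace Y] {π : X → Y}

/-- An entire curve over `w ↦ f (w ^ m)` extends to infinity. -/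
theorem exists_sph_of_entire [T2Space X] {S : Sph Y} (hπ : IsClosedMap π)
    (fin0 : (π ⁻¹' {S.f 0}).Finite) (fin1 : (π ⁻¹' {S.g 0}).Finite) {e : C(ℂ, X)} {m : ℕ}
    (hm : 0 < m) (he : ∀ w, π (e w) = S.f (w ^ m)) :
    ∃ α : Sph X, α.f = e ∧ ∀ w, π (α.g w) = S.g (w ^ m) := by
  have hmc : (m : ℂ) ≠ 0 := Nat.cast_ne_zero.2 hm.ne'
  let L : C(ℂ, X) := e.comp ⟨fun z => Complex.exp (z / m), by fun_prop⟩
  have hLz : ∀ z, L z = e (Complex.exp (z / m)) := fun z => rfl
  have hL : ∀ z, π (L z) = S.f (Complex.exp z) := by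
    intro z
    rw [hLz, he, ← Complex.exp_nat_mul, mul_div_cancel₀ _ hmc]
  have hper : Function.Periodic L (m * (2 * Real.pi * Complex.I)) := by
    intro z
    rw [hLz, hLz, add_div, mul_div_cancel_left₀ _ hmc, Complex.exp_add, Complex.exp_two_pi_mul_I,
      mul_one]
  obtain ⟨α, h1, -, h3⟩ := exists_sph_of_periodic hπ fin0 fin1 hL hm hper
  refine ⟨α, ?_, h3⟩
  have h4 : ∀ w ∈ ({0}ᶜ : Set ℂ), α.f w = e w := by
    intro w hw
    have := h1 (Complex.log w)
    rw [Complex.exp_log hw, hLz, mul_div_cancel_left₀ _ hmc, Complex.exp_log hw] at this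
    exact this
  have h5 : (α.f : ℂ → X) = e :=
    Continuous.ext_on (dense_compl_singleton (0 : ℂ)) α.f.continuous e.continuous h4
  exact DFunLike.coe_injective h5

/-- **End of the proof, label form.** -/
theorem end_of_curves' {E : Type*} [NormedAddCommGroup E] [NormedSpace ℂ E]
    [FiniteDimensional ℂ E]
    {X : Type} [TopologicalSpace X] [T2Space X] [CompactSpace X] [ConnectedSpace X]
    [ChartedSpace E X] [IsManifold 𝓘(ℂ, E) ω X]
    {Y : Type*} [TopologicalSpace Y] [T2Space Y] {π : X → Y} (hπ : Continuous π)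
    {J : Type*} {S : J → Sph Y}
    (fin0 : ∀ j, (π ⁻¹' {(S j).f 0}).Finite) (fin1 : ∀ j, (π ⁻¹' {(S j).g 0}).Finite)
    {Lab : Type*} (e : J → Lab → C(ℂ, X)) (m : J → ℕ) (hm : ∀ j, 0 < m j)
    (he : ∀ j s w, π (e j s w) = (S j).f (w ^ m j))
    (hol : ∀ j s, ContMDiff 𝓘(ℂ) 𝓘(ℂ, E) ω (e j s))
    {D : Set X} (hD : D.Finite)
    (tower : ∀ n : ℕ, ∃ (Z : Type) (_ : TopologicalSpace Z) (q : Z → X) (_ : IsCoveringMap q)
      (Lab' : Type) (φ : Lab' → Lab) (F : J → Lab' → C(ℂ, Z)) (node : Lab' → Z)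
      (c : J → Equiv.Perm Lab') (s₀ : Lab') (T : Finset Lab'),
      InjOn node T ∧ (∀ j s w, q (F j s w) = e j (φ s) w) ∧
      (∀ j s (k : ℤ), F j s (Complex.exp (2 * Real.pi * Complex.I / m j) ^ k) =
        node ((c j ^ k) s)) ∧
      (∀ s, q (node s) ∈ D) ∧ n ≤ T.card ∧ ∀ t ∈ T, ∃ g ∈ Subgroup.closure (range c), g s₀ = t) :
    (∃ (V : Type) (_ : TopologicalSpace V) (_ : ChartedSpace E V) (p : V → X),
      T2Space V ∧ SimplyConnectedSpace V ∧ IsManifold 𝓘(ℂ, E) ω V ∧ IsHolomorphicCovering E p ∧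
      ¬ HolomorphicallyConvex E V) ∧
    ∀ (V : Type) [TopologicalSpace V] [ChartedSpace E V] [SimplyConnectedSpace V] (p : V → X),
      IsHolomorphicCovering E p → ¬ HolomorphicallyConvex E V := by
  classical
  have hα := fun i : J × Lab => exists_sph_of_entire hπ.isClosedMap (fin0 i.1) (fin1 i.1)
    (hm i.1) (he i.1 i.2)
  choose α hα1 hα2 using hα
  refine H673.not_convex_entire_universal (ι := J × Lab) (α := fun i => (α i).f)
    (α' := fun i => (α i).g) (D := D)
    (fun i => by rw [hα1]; exact hol i.1 i.2) (fun i w hw => (α i).h' hw) hD fun n => ?_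
  obtain ⟨Z, _, q, hq, Lab', φ, F, node, c, s₀, T, hinj, hF, hnode, hDn, hn, hT⟩ := tower n
  refine ⟨Z, inferInstance, q, hq, node s₀, T.image node, hDn s₀, ?_, fun z hz => ?_⟩
  · rwa [Finset.card_image_of_injOn hinj]
  obtain ⟨t, ht, rfl⟩ := Finset.mem_image.1 hz
  refine ⟨?_, hDn t⟩
  have step : ∀ (j : J) (s : Lab') (k l : ℤ),
      H527.Chn (A := fun _ => ℂ) (fun i : J × Lab => (α i).f) q (node s₀) (node ((c j ^ k) s)) →
      H527.Chn (A := fun _ => ℂ) (fun i : J × Lab => (α i).f) q (node s₀) (node ((c j ^ l) s)) := by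
    intro j s k l h
    rw [← hnode] at h ⊢
    refine H527.Chn.step (A := fun _ => ℂ) (α := fun i : J × Lab => (α i).f) (j, φ s) (F j s) ?_
      _ _ h
    funext w
    simp only [Function.comp_apply, hF, hα1]
  have key : ∀ g ∈ Subgroup.closure (range c),
      (∀ s, H527.Chn (A := fun _ => ℂ) (fun i : J × Lab => (α i).f) q (node s₀) (node s) →
        H527.Chn (A := fun _ => ℂ) (fun i : J × Lab => (α i).f) q (node s₀) (node (g s))) ∧
      (∀ s, H527.Chn (A := fun _ => ℂ) (fun i : J × Lab => (α i).f) q (node s₀) (node s) →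
        H527.Chn (A := fun _ => ℂ) (fun i : J × Lab => (α i).f) q (node s₀) (node (g⁻¹ s))) := by
    intro g hg
    induction hg using Subgroup.closure_induction with
    | mem g hg =>
      obtain ⟨j, rfl⟩ := hg
      refine ⟨fun s hs => ?_, fun s hs => ?_⟩
      · have := step j s 0 1 (by simpa using hs)
        simpa using this
      · have := step j s 0 (-1) (by simpa using hs)
        simpa using this
    | one => exact ⟨fun s hs => by simpa using hs, fun s hs => by simpa using hs⟩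
    | mul g h _ _ hg hh =>
      refine ⟨fun s hs => ?_, fun s hs => ?_⟩
      · have := hg.1 _ (hh.1 s hs)
        simpa using this
      · have := hh.2 _ (hg.2 s hs)
        simpa [mul_inv_rev] using this
    | inv g _ hg => exact ⟨hg.2, by simpa using hg.1⟩
  obtain ⟨g, hg, rfl⟩ := hT t ht
  exact (key g hg).1 s₀ H527.Chn.base

/-- **End of the proof, label form** (354's text): `hol` for all continuous curves over the
spheres. -/
theorem end_of_curves {E : Type*} [NormedAddCommGroup E] [NormedSpace ℂ E]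
    [FiniteDimensional ℂ E]
    {X : Type} [TopologicalSpace X] [T2Space X] [CompactSpace X] [ConnectedSpace X]
    [ChartedSpace E X] [IsManifold 𝓘(ℂ, E) ω X]
    {Y : Type*} [TopologicalSpace Y] [T2Space Y] {π : X → Y} (hπ : Continuous π)
    {J : Type*} {S : J → Sph Y}
    (fin0 : ∀ j, (π ⁻¹' {(S j).f 0}).Finite) (fin1 : ∀ j, (π ⁻¹' {(S j).g 0}).Finite)
    {Lab : Type*} (e : J → Lab → C(ℂ, X)) (m : J → ℕ) (hm : ∀ j, 0 < m j)
    (he : ∀ j s w, π (e j s w) = (S j).f (w ^ m j))
    (hol : ∀ (j : J) (e : C(ℂ, X)) (m : ℕ), 0 < m → (∀ w, π (e w) = (S j).f (w ^ m)) →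
      ContMDiff 𝓘(ℂ) 𝓘(ℂ, E) ω e)
    {D : Set X} (hD : D.Finite)
    (tower : ∀ n : ℕ, ∃ (Z : Type) (_ : TopologicalSpace Z) (q : Z → X) (_ : IsCoveringMap q)
      (Lab' : Type) (φ : Lab' → Lab) (F : J → Lab' → C(ℂ, Z)) (node : Lab' → Z)
      (c : J → Equiv.Perm Lab') (s₀ : Lab') (T : Finset Lab'),
      InjOn node T ∧ (∀ j s w, q (F j s w) = e j (φ s) w) ∧
      (∀ j s (k : ℤ), F j s (Complex.exp (2 * Real.pi * Complex.I / m j) ^ k) =
        node ((c j ^ k) s)) ∧
      (∀ s, q (node s) ∈ D) ∧ n ≤ T.card ∧ ∀ t ∈ T, ∃ g ∈ Subgroup.closure (range c), g s₀ = t) :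
    (∃ (V : Type) (_ : TopologicalSpace V) (_ : ChartedSpace E V) (p : V → X),
      T2Space V ∧ SimplyConnectedSpace V ∧ IsManifold 𝓘(ℂ, E) ω V ∧ IsHolomorphicCovering E p ∧
      ¬ HolomorphicallyConvex E V) ∧
    ∀ (V : Type) [TopologicalSpace V] [ChartedSpace E V] [SimplyConnectedSpace V] (p : V → X),
      IsHolomorphicCovering E p → ¬ HolomorphicallyConvex E V :=
  end_of_curves' hπ fin0 fin1 e m hm he (fun j s => hol j _ _ (hm j) (he j s)) hD tower

end Vale.Agent.P300.H839
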