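import Vale.Agent.P300.H839.Labels
import Vale.Agent.P300.H232.End

/-!
# P300, block [CURVE], part 6: the label form with the conclusion `H232.Chains`
-/

open Topology Filter Set
open scoped Manifold ContDiff

namespace Vale.Agent.P300.H839

/-- **Label form**, conclusion `H232.Chains E X`. -/
theorem chains_of_curves' {E : Type} [NormedAddCommGroup E] [NormedSpace ℂ E]
    {X : Type} [TopologicalSpace X] [T2Space X] [CompactSpace X] [ChartedSpace E X]
    {Y : Type*} [TopologicalSpace Y] [T2Space Y] {π : X → Y} (hπ : Continuous π)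
    {J : Type} {S : J → Sph Y}
    (fin0 : ∀ j, (π ⁻¹' {(S j).f 0}).Finite) (fin1 : ∀ j, (π ⁻¹' {(S j).g 0}).Finite)
    {Lab : Type} (e : J → Lab → C(ℂ, X)) (m : J → ℕ) (hm : ∀ j, 0 < m j)
    (he : ∀ j s w, π (e j s w) = (S j).f (w ^ m j))
    (hol : ∀ j s, ContMDiff 𝓘(ℂ) 𝓘(ℂ, E) ω (e j s))
    {D : Set X} (hD : D.Finite)
    (tower : ∀ n : ℕ, ∃ (Z : Type) (_ : TopologicalSpace Z) (q : Z → X) (_ : IsCoveringMap q)
      (Lab' : Type) (φ : Lab' → Lab) (F : J → Lab' → C(ℂ, Z)) (node : Lab' → Z)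
      (c : J → Equiv.Perm Lab') (s₀ : Lab') (T : Finset Lab'),
      InjOn node T ∧ (∀ j s w, q (F j s w) = e j (φ s) w) ∧
      (∀ j s (k : ℤ), F j s (Complex.exp (2 * Real.pi * Complex.I / m j) ^ k) =
        node ((c j ^ k) s)) ∧
      (∀ s, q (node s) ∈ D) ∧ n ≤ T.card ∧ ∀ t ∈ T, ∃ g ∈ Subgroup.closure (range c), g s₀ = t) :
    H232.Chains E X := by
  classical
  have hα := fun i : J × Lab => exists_sph_of_entire hπ.isClosedMap (fin0 i.1) (fin1 i.1)
    (hm i.1) (he i.1 i.2)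
  choose α hα1 hα2 using hα
  refine ⟨J × Lab, fun i => (α i).f, fun i => (α i).g, D,
    fun i => ?_, fun i w hw => (α i).h' hw, hD, fun n => ?_⟩
  · show ContMDiff 𝓘(ℂ) 𝓘(ℂ, E) ω (α i).f
    rw [hα1]
    exact hol i.1 i.2
  obtain ⟨Z, _, q, hq, Lab', φ, F, node, c, s₀, T, hinj, hF, hnode, hDn, hn, hT⟩ := tower n
  refine ⟨Z, inferInstance, q, hq, node s₀, T.image node, hDn s₀, ?_, fun z hz => ?_⟩
  · rwa [Finset.card_image_of_injOn hinj]
  obtain ⟨t, ht, rfl⟩ := Finset.mem_image.1 hz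
  refine ⟨?_, hDn t⟩
  have step : ∀ (j : J) (s : Lab') (k l : ℤ),
      H527.Chn (A := fun _ => ℂ) (fun i : J × Lab => (α i).f) q (node s₀) (node ((c j ^ k) s)) →
      H527.Chn (A := fun _ => ℂ) (fun i : J × Lab => (α i).f) q (node s₀) (node ((c j ^ l) s)) := by
    intro j s k l h
    rw [← hnode] at h ⊢
    refine H527.Chn.step (A := fun _ => ℂ) (α := fun i : J × Lab => (α i).f) (j, φ s) (F j s) ?_
      _ _ h
    funext w
    simp only [Function.comp_apply, hF, hα1]
  have key : ∀ g ∈ Subgroup.closure (range c),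
      (∀ s, H527.Chn (A := fun _ => ℂ) (fun i : J × Lab => (α i).f) q (node s₀) (node s) →
        H527.Chn (A := fun _ => ℂ) (fun i : J × Lab => (α i).f) q (node s₀) (node (g s))) ∧
      (∀ s, H527.Chn (A := fun _ => ℂ) (fun i : J × Lab => (α i).f) q (node s₀) (node s) →
        H527.Chn (A := fun _ => ℂ) (fun i : J × Lab => (α i).f) q (node s₀) (node (g⁻¹ s))) := by
    intro g hg
    induction hg using Subgroup.closure_induction with
    | mem g hg =>
      obtain ⟨j, rfl⟩ := hg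
      refine ⟨fun s hs => ?_, fun s hs => ?_⟩
      · have := step j s 0 1 (by simpa using hs)
        simpa using this
      · have := step j s 0 (-1) (by simpa using hs)
        simpa using this
    | one => exact ⟨fun s hs => by simpa using hs, fun s hs => by simpa using hs⟩
    | mul g h _ _ hg hh =>
      refine ⟨fun s hs => ?_, fun s hs => ?_⟩
      · have := hg.1 _ (hh.1 s hs)
        simpa using this
      · have := hh.2 _ (hg.2 s hs)
        simpa [mul_inv_rev] using this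
    | inv g _ hg => exact ⟨hg.2, by simpa using hg.1⟩
  obtain ⟨g, hg, rfl⟩ := hT t ht
  exact (key g hg).1 s₀ H527.Chn.base

/-- **Label form**, conclusion `H232.Chains E X`, `hol` for all continuous curves over the
spheres. -/
theorem chains_of_curves {E : Type} [NormedAddCommGroup E] [NormedSpace ℂ E]
    {X : Type} [TopologicalSpace X] [T2Space X] [CompactSpace X] [ChartedSpace E X]
    {Y : Type*} [TopologicalSpace Y] [T2Space Y] {π : X → Y} (hπ : Continuous π)
    {J : Type} {S : J → Sph Y}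
    (fin0 : ∀ j, (π ⁻¹' {(S j).f 0}).Finite) (fin1 : ∀ j, (π ⁻¹' {(S j).g 0}).Finite)
    {Lab : Type} (e : J → Lab → C(ℂ, X)) (m : J → ℕ) (hm : ∀ j, 0 < m j)
    (he : ∀ j s w, π (e j s w) = (S j).f (w ^ m j))
    (hol : ∀ (j : J) (e : C(ℂ, X)) (m : ℕ), 0 < m → (∀ w, π (e w) = (S j).f (w ^ m)) →
      ContMDiff 𝓘(ℂ) 𝓘(ℂ, E) ω e)
    {D : Set X} (hD : D.Finite)
    (tower : ∀ n : ℕ, ∃ (Z : Type) (_ : TopologicalSpace Z) (q : Z → X) (_ : IsCoveringMap q)
      (Lab' : Type) (φ : Lab' → Lab) (F : J → Lab' → C(ℂ, Z)) (node : Lab' → Z)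
      (c : J → Equiv.Perm Lab') (s₀ : Lab') (T : Finset Lab'),
      InjOn node T ∧ (∀ j s w, q (F j s w) = e j (φ s) w) ∧
      (∀ j s (k : ℤ), F j s (Complex.exp (2 * Real.pi * Complex.I / m j) ^ k) =
        node ((c j ^ k) s)) ∧
      (∀ s, q (node s) ∈ D) ∧ n ≤ T.card ∧ ∀ t ∈ T, ∃ g ∈ Subgroup.closure (range c), g s₀ = t) :
    H232.Chains E X :=
  chains_of_curves' hπ fin0 fin1 e m hm he (fun j s => hol j _ _ (hm j) (he j s)) hD tower

end Vale.Agent.P300.H839
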