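import Mathlib

/-!
# P300, block [CURVE], part 1: compact rational curves in a compact space over a curve in the base

`Sph Y` is a continuous map of the Riemann sphere into `Y`, given on its two standard discs.
If `π : X → Y` (X compact Hausdorff, Y Hausdorff) is a local homeomorphism over the part `w ≠ 0, ∞`
of such a sphere and has finite fibres over `0` and `∞`, then the lift `L` of `ζ ↦ f (exp ζ)`
through a given point closes up to a sphere `e` in `X` lying over `w ↦ w ^ m`.
-/

open Topology Filter Set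

namespace Vale.Agent.P300.H839

noncomputable section

/-- A closed map with finite fibre over `y`: a map whose composition tends to `y` along a filter
with a basis of sets with preconnected images converges to a point of the fibre. -/
theorem exists_tendsto_fibre {W X Y ι : Type*} [TopologicalSpace X] [TopologicalSpace Y]
    [T2Space X] {π : X → Y} (hπ : IsClosedMap π) {y : Y}
    (fin : (π ⁻¹' {y}).Finite) {f : W → X} {l : Filter W} [NeBot l] {p : ι → Prop}
    {s : ι → Set W} (hl : l.HasBasis p s) (hc : ∀ i, p i → IsPreconnected (f '' s i))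
    (h : Tendsto (fun w => π (f w)) l (𝓝 y)) : ∃ x, π x = y ∧ Tendsto f l (𝓝 x) := by
  have hle : Tendsto f l (𝓝ˢ (π ⁻¹' {y})) :=
    (tendsto_comap_iff.2 h).mono_right (isClosedMap_iff_comap_nhds_le.mp hπ)
  obtain ⟨V, hV, disj⟩ := fin.t2_separation
  have key : ∀ N : X → Set X, (∀ x, x ∈ π ⁻¹' {y} → IsOpen (N x) ∧ x ∈ N x) →
      ∀ᶠ w in l, ∃ x ∈ π ⁻¹' {y}, f w ∈ N x := by
    intro N hN
    have h1 : (⋃ x ∈ π ⁻¹' {y}, N x) ∈ 𝓝ˢ (π ⁻¹' {y}) := by
      refine (isOpen_biUnion fun x hx => (hN x hx).1).mem_nhdsSet.2 fun x hx => ?_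
      exact mem_biUnion hx (hN x hx).2
    filter_upwards [hle h1] with w hw
    simpa using hw
  have h1 := key V fun x _ => ⟨(hV x).2, (hV x).1⟩
  obtain ⟨i, hi, hsi⟩ := hl.eventually_iff.1 h1
  have hne : (s i).Nonempty := hl.ex_mem.elim fun _ _ => nonempty_of_mem (hl.mem_of_mem hi)
  obtain ⟨w0, hw0⟩ := hne
  obtain ⟨x0, hx0, hfx0⟩ := hsi hw0
  have hsub : f '' s i ⊆ V x0 := by
    by_contra hcon
    obtain ⟨z, ⟨w, hw, rfl⟩, hz⟩ := not_subset.1 hcon
    obtain ⟨x1, hx1, hfx1⟩ := hsi hw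
    have hx01 : x1 ≠ x0 := by rintro rfl; exact hz hfx1
    have := hc i hi (V x0) (⋃ x ∈ (π ⁻¹' {y}) \ {x0}, V x) (hV x0).2
      (isOpen_biUnion fun x _ => (hV x).2) ?_ ⟨f w0, ⟨w0, hw0, rfl⟩, hfx0⟩
      ⟨f w, ⟨w, hw, rfl⟩, mem_biUnion ⟨hx1, hx01⟩ hfx1⟩
    · obtain ⟨z, _, hz0, hz1⟩ := this
      simp only [mem_iUnion, exists_prop] at hz1
      obtain ⟨x, ⟨hx, hxx⟩, hz1⟩ := hz1
      exact (disj hx0 hx (fun h => hxx h.symm)).le_bot ⟨hz0, hz1⟩
    · rintro _ ⟨w', hw', rfl⟩
      obtain ⟨x, hx, hfx⟩ := hsi hw'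
      by_cases hxx : x = x0
      · left; rwa [← hxx]
      · right; exact mem_biUnion ⟨hx, hxx⟩ hfx
  refine ⟨x0, hx0, ?_⟩
  rw [tendsto_nhds]
  intro N hN hxN
  classical
  have h2 := key (fun x => if x = x0 then V x0 ∩ N else V x) fun x _ => by
    by_cases hxx : x = x0
    · subst hxx; simpa using ⟨(hV x).2.inter hN, (hV x).1, hxN⟩
    · simpa [hxx] using ⟨(hV x).2, (hV x).1⟩
  filter_upwards [h2, hl.mem_of_mem hi] with w hw hws
  obtain ⟨x, hx, hfx⟩ := hw
  by_cases hxx : x = x0
  · subst hxx; simp at hfx; exact hfx.2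
  · simp only [hxx, if_false] at hfx
    exact ((disj hx0 hx (fun h => hxx h.symm)).le_bot ⟨hsub ⟨w, hws, rfl⟩, hfx⟩).elim

/-- A continuous map of the Riemann sphere, given on the two discs `ℂ` and `1 / ℂ`. -/
structure Sph (X : Type*) [TopologicalSpace X] where
  f : C(ℂ, X)
  g : C(ℂ, X)
  h : ∀ w : ℂ, w ≠ 0 → g w = f w⁻¹

namespace Sph

variable {X Y : Type*} [TopologicalSpace X] [TopologicalSpace Y]

/-- The part of the sphere away from `0` and `∞`. -/
def mid (S : Sph Y) : Set Y := S.f '' {w | w ≠ 0}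

theorem exp_mem (S : Sph Y) (z : ℂ) : S.f (Complex.exp z) ∈ S.mid :=
  ⟨_, Complex.exp_ne_zero z, rfl⟩

theorem h' (S : Sph Y) {w : ℂ} (hw : w ≠ 0) : S.f w = S.g w⁻¹ := by
  rw [S.h _ (inv_ne_zero hw), inv_inv]

/-- The image sphere. -/
def map (S : Sph X) (p : C(X, Y)) : Sph Y where
  f := p.comp S.f
  g := p.comp S.g
  h _ hw := by simp [S.h _ hw]

/-- The sphere with `0` and `∞` exchanged. -/
def swap (S : Sph X) : Sph X where
  f := S.g
  g := S.f
  h _ hw := S.h' hw

end Sph

/-- punctured neighbourhoods of `0` in `ℂ` have a basis of connected sets -/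
theorem basis_punct : (𝓝[≠] (0 : ℂ)).HasBasis (fun r : ℝ => 0 < r)
    (fun r => Metric.ball (0 : ℂ) r \ {0}) := by
  have := nhdsWithin_hasBasis (Metric.nhds_basis_ball (x := (0 : ℂ))) {0}ᶜ
  simpa [sdiff_eq] using this

theorem isPreconnected_punct (r : ℝ) : IsPreconnected (Metric.ball (0 : ℂ) r \ {0}) := by
  by_cases hr : 0 < r
  · have h1 : Metric.ball (0 : ℂ) r \ {0} = Complex.exp '' {z : ℂ | z.re < Real.log r} := by
      ext w
      simp only [Set.mem_sdiff, Metric.mem_ball, dist_zero_right, mem_singleton_iff, mem_image,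
        mem_ofPred_eq]
      constructor
      · rintro ⟨h1, h2⟩
        refine ⟨Complex.log w, ?_, Complex.exp_log h2⟩
        rw [Complex.log_re]
        exact Real.log_lt_log (norm_pos_iff.2 h2) h1
      · rintro ⟨z, hz, rfl⟩
        refine ⟨?_, Complex.exp_ne_zero _⟩
        rw [Complex.norm_exp]
        exact (Real.lt_log_iff_exp_lt hr).1 hz
    rw [h1]
    refine IsPreconnected.image ?_ _ Complex.continuous_exp.continuousOn
    exact (convex_halfSpace_re_lt _).isPreconnected
  · have : Metric.ball (0 : ℂ) r \ {0} = ∅ := by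
      rw [Metric.ball_eq_empty.2 (not_lt.1 hr)]; simp
    rw [this]; exact isPreconnected_empty

section Lift

variable {X Y : Type*} [TopologicalSpace X] [TopologicalSpace Y] {π : X → Y}

/-- The lift of `ζ ↦ f (exp ζ)`. -/
theorem exists_lift {S : Sph Y} (cov : IsCoveringMapOn π S.mid) {x : X} (hx : π x = S.f 1) :
    ∃ L : C(ℂ, X), L 0 = x ∧ ∀ z, π (L z) = S.f (Complex.exp z) := by
  obtain ⟨L, ⟨h1, h2⟩, _⟩ := cov.existsUnique_continuousMap_lifts
    (f := S.f.comp ⟨Complex.exp, Complex.continuous_exp⟩) (a₀ := 0) (e₀ := x)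
    (by simpa using hx) (fun a => S.exp_mem a)
  exact ⟨L, h1, fun z => congrFun h2 z⟩

theorem lift_unique {S : Sph Y} (cov : IsCoveringMapOn π S.mid) {L M : C(ℂ, X)}
    (hL : ∀ z, π (L z) = S.f (Complex.exp z)) (hM : ∀ z, π (M z) = S.f (Complex.exp z))
    {z0 : ℂ} (h0 : L z0 = M z0) : L = M := by
  obtain ⟨F, _, hu⟩ := cov.existsUnique_continuousMap_lifts
    (f := S.f.comp ⟨Complex.exp, Complex.continuous_exp⟩) (a₀ := z0) (e₀ := L z0)
    (by simpa using hL z0) (fun a => S.exp_mem a)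
  exact (hu L ⟨rfl, funext hL⟩).trans (hu M ⟨h0.symm, funext hM⟩).symm

/-- shift by a period of the exponential -/
theorem lift_add {S : Sph Y} (cov : IsCoveringMapOn π S.mid) {L : C(ℂ, X)}
    (hL : ∀ z, π (L z) = S.f (Complex.exp z)) {m : ℤ}
    (h0 : L (m * (2 * Real.pi * Complex.I)) = L 0) (z : ℂ) :
    L (z + m * (2 * Real.pi * Complex.I)) = L z := by
  have := lift_unique cov (L := L.comp ⟨fun z => z + m * (2 * Real.pi * Complex.I),
    by fun_prop⟩) (M := L) (z0 := 0) (fun z => ?_) hL (by simpa using h0)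
  · exact DFunLike.congr_fun this z
  · simp only [ContinuousMap.comp_apply, ContinuousMap.coe_mk, hL]
    rw [Complex.exp_add, Complex.exp_int_mul_two_pi_mul_I, mul_one]

theorem lift_periodic {S : Sph Y} (cov : IsCoveringMapOn π S.mid) {L : C(ℂ, X)}
    (hL : ∀ z, π (L z) = S.f (Complex.exp z)) {m : ℕ}
    (h0 : L (m * (2 * Real.pi * Complex.I)) = L 0) :
    Function.Periodic L (m * (2 * Real.pi * Complex.I)) := by
  intro z
  have := lift_add cov hL (m := m) (by simpa using h0) z
  simpa using this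

/-- Some period exists when the fibre over the base point is finite. -/
theorem exists_period {S : Sph Y} (cov : IsCoveringMapOn π S.mid) {L : C(ℂ, X)}
    (hL : ∀ z, π (L z) = S.f (Complex.exp z)) (fin : (π ⁻¹' {S.f 1}).Finite) :
    ∃ m : ℕ, 0 < m ∧ L (m * (2 * Real.pi * Complex.I)) = L 0 := by
  have hmem : ∀ k : ℕ, L (k * (2 * Real.pi * Complex.I)) ∈ π ⁻¹' {S.f 1} := by
    intro k
    simp only [mem_preimage, hL, mem_singleton_iff]
    rw [Complex.exp_nat_mul_two_pi_mul_I]
  obtain ⟨a, _, b, _, hab, heq⟩ := infinite_univ.exists_ne_map_eq_of_mapsTo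
    (f := fun k : ℕ => L (k * (2 * Real.pi * Complex.I))) (fun k _ => hmem k) fin
  wlog hlt : a < b generalizing a b
  · exact this b trivial a trivial hab.symm heq.symm (lt_of_le_of_ne (not_lt.1 hlt) hab.symm)
  refine ⟨b - a, Nat.sub_pos_of_lt hlt, ?_⟩
  have hs := lift_unique cov (L := L.comp ⟨fun z => z + (b - a : ℕ) * (2 * Real.pi * Complex.I),
    by fun_prop⟩) (M := L) (z0 := a * (2 * Real.pi * Complex.I)) (fun z => ?_) hL ?_
  · have := DFunLike.congr_fun hs 0
    simpa using this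
  · simp only [ContinuousMap.comp_apply, ContinuousMap.coe_mk, hL]
    rw [Complex.exp_add, Complex.exp_nat_mul_two_pi_mul_I, mul_one]
  · simp only [ContinuousMap.comp_apply, ContinuousMap.coe_mk]
    have h1 : (a : ℂ) * (2 * Real.pi * Complex.I) + (b - a : ℕ) * (2 * Real.pi * Complex.I)
        = b * (2 * Real.pi * Complex.I) := by
      rw [Nat.cast_sub hlt.le]; ring
    rw [h1]; exact heq.symm

/-- **The curve**, for a periodic lift `L` of `ζ ↦ f (exp ζ)`. -/
theorem exists_sph_of_periodic [T2Space X] {S : Sph Y} (hπ : IsClosedMap π)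
    (fin0 : (π ⁻¹' {S.f 0}).Finite) (fin1 : (π ⁻¹' {S.g 0}).Finite) {L : C(ℂ, X)}
    (hL : ∀ z, π (L z) = S.f (Complex.exp z)) {m : ℕ} (hm : 0 < m)
    (hper : Function.Periodic L (m * (2 * Real.pi * Complex.I))) :
    ∃ e : Sph X, (∀ z, e.f (Complex.exp z) = L (m * z)) ∧ (∀ w, π (e.f w) = S.f (w ^ m)) ∧
      ∀ w, π (e.g w) = S.g (w ^ m) := by
  set e0 : ℂ → X := fun w => L (m * Complex.log w) with he0
  have key : ∀ a b : ℂ, Complex.exp a = Complex.exp b → L (m * a) = L (m * b) := by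
    intro a b hab
    obtain ⟨n, hn⟩ := Complex.exp_eq_exp_iff_exists_int.1 hab
    rw [hn, mul_add]
    have := hper.int_mul n (m * b)
    rw [← this]; congr 1; ring
  have hexp : ∀ z, e0 (Complex.exp z) = L (m * z) := fun z =>
    key _ _ (Complex.exp_log (Complex.exp_ne_zero z))
  have hπe : ∀ w, w ≠ 0 → π (e0 w) = S.f (w ^ m) := by
    intro w hw
    rw [he0]
    simp only [hL]
    rw [Complex.exp_nat_mul, Complex.exp_log hw]
  have hcont : ∀ w, w ≠ 0 → ContinuousAt e0 w := by
    intro w hw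
    have h1 : e0 =ᶠ[𝓝 w] fun w' => L (m * (Complex.log (w' / w) + Complex.log w)) := by
      filter_upwards [isOpen_ne.mem_nhds hw] with w' hw'
      refine key _ _ ?_
      rw [Complex.exp_log hw', Complex.exp_add, Complex.exp_log (div_ne_zero hw' hw),
        Complex.exp_log hw, div_mul_cancel₀ _ hw]
    refine ContinuousAt.congr ?_ h1.symm
    have h2 : ContinuousAt (fun w' => Complex.log (w' / w)) w := by
      refine ContinuousAt.clog (by fun_prop (disch := assumption)) ?_
      rw [div_self hw]; exact Complex.one_mem_slitPlane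
    exact L.continuous.continuousAt.comp
      (continuousAt_const.mul (h2.add continuousAt_const))
  have hcinv : ∀ w, w ≠ 0 → ContinuousAt (fun w => e0 w⁻¹) w := fun w hw =>
    (hcont _ (inv_ne_zero hw)).comp (f := fun w : ℂ => w⁻¹) (continuousAt_inv₀ hw)
  have hpow : Tendsto (fun w : ℂ => w ^ m) (𝓝[≠] 0) (𝓝 0) := by
    have : ContinuousAt (fun w : ℂ => w ^ m) 0 := by fun_prop
    have h2 := this.tendsto
    simp only [zero_pow hm.ne'] at h2
    exact h2.mono_left nhdsWithin_le_nhds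
  have hne : ∀ {w : ℂ} {r : ℝ}, w ∈ Metric.ball (0 : ℂ) r \ {0} → w ≠ 0 := fun h => by
    simpa using h.2
  obtain ⟨x0, hx0, ht0⟩ := exists_tendsto_fibre hπ fin0 basis_punct
    (f := e0) (fun r _ => (isPreconnected_punct r).image _
      (fun w hw => (hcont w (hne hw)).continuousWithinAt))
    (((S.f.continuous.tendsto 0).comp hpow).congr' (by
      filter_upwards [self_mem_nhdsWithin] with w hw
      exact (hπe w hw).symm))
  obtain ⟨x1, hx1, ht1⟩ := exists_tendsto_fibre hπ fin1 basis_punct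
    (f := fun w => e0 w⁻¹) (fun r _ => (isPreconnected_punct r).image _
      (fun w hw => (hcinv w (hne hw)).continuousWithinAt))
    (((S.g.continuous.tendsto 0).comp hpow).congr' (by
      filter_upwards [self_mem_nhdsWithin] with w hw
      have hw' : w ≠ 0 := hw
      simp only [Function.comp]
      rw [hπe _ (inv_ne_zero hw'), S.h _ (pow_ne_zero m hw'), inv_pow]))
  classical
  let F : C(ℂ, X) := ⟨Function.update e0 0 x0, by
    rw [continuous_iff_continuousAt]
    intro w
    by_cases hw : w = 0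
    · subst hw; exact continuousAt_update_same.2 ht0
    · exact (continuousAt_update_of_ne hw).2 (hcont w hw)⟩
  let G : C(ℂ, X) := ⟨Function.update (fun w => e0 w⁻¹) 0 x1, by
    rw [continuous_iff_continuousAt]
    intro w
    by_cases hw : w = 0
    · subst hw; exact continuousAt_update_same.2 ht1
    · exact (continuousAt_update_of_ne hw).2 (hcinv w hw)⟩
  have hF : ∀ w, w ≠ 0 → F w = e0 w := fun w hw => Function.update_of_ne (f := e0) hw x0
  have hG : ∀ w, w ≠ 0 → G w = e0 w⁻¹ := fun w hw =>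
    Function.update_of_ne (f := fun w => e0 w⁻¹) hw x1
  refine ⟨⟨F, G, fun w hw => by rw [hG w hw, hF _ (inv_ne_zero hw)]⟩, fun z => ?_, fun w => ?_,
    fun w => ?_⟩
  · simp only
    rw [hF _ (Complex.exp_ne_zero z), hexp]
  · by_cases hw : w = 0
    · subst hw
      have : F 0 = x0 := Function.update_self (0 : ℂ) x0 e0
      simp only [this, hx0, zero_pow hm.ne']
    · simp only [hF w hw, hπe w hw]
  · by_cases hw : w = 0
    · subst hw
      have : G 0 = x1 := Function.update_self (0 : ℂ) x1 (fun w => e0 w⁻¹)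
      simp only [this, hx1, zero_pow hm.ne']
    · simp only [hG w hw]
      rw [hπe _ (inv_ne_zero hw), S.h _ (pow_ne_zero m hw), inv_pow]

/-- **The curve.** The lift `L` of `ζ ↦ f (exp ζ)` with period `2πi m` closes up to a sphere. -/
theorem exists_sph [T2Space X] {S : Sph Y} (hπ : IsClosedMap π)
    (cov : IsCoveringMapOn π S.mid)
    (fin0 : (π ⁻¹' {S.f 0}).Finite) (fin1 : (π ⁻¹' {S.g 0}).Finite) {L : C(ℂ, X)}
    (hL : ∀ z, π (L z) = S.f (Complex.exp z)) {m : ℕ} (hm : 0 < m)
    (h0 : L (m * (2 * Real.pi * Complex.I)) = L 0) :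
    ∃ e : Sph X, (∀ z, e.f (Complex.exp z) = L (m * z)) ∧ (∀ w, π (e.f w) = S.f (w ^ m)) ∧
      ∀ w, π (e.g w) = S.g (w ^ m) :=
  exists_sph_of_periodic hπ fin0 fin1 hL hm (lift_periodic cov hL h0)

end Lift

end

end Vale.Agent.P300.H839
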