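import Vale.Agent.P300.H839.Tower
import Vale.Agent.P300.H673.Entire

/-!
# P300, block [CURVE], part 3: orbits of node points in coverings ⟹ the universal cover is not
holomorphically convex
-/

open Topology Filter Set
open scoped Manifold ContDiff

namespace Vale.Agent.P300.H839

/-- **End of the proof from the monodromy orbits.** -/
theorem end_of_orbits {E : Type*} [NormedAddCommGroup E] [NormedSpace ℂ E] [FiniteDimensional ℂ E]
    {X : Type} [TopologicalSpace X] [T2Space X] [CompactSpace X] [ConnectedSpace X]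
    [ChartedSpace E X] [IsManifold 𝓘(ℂ, E) ω X]
    {Y : Type*} [TopologicalSpace Y] [T2Space Y] {π : X → Y} (hπ : Continuous π)
    {J : Type*} [Nonempty J] {S : J → Sph Y} {y₀ : Y} (hy : ∀ j, (S j).f 1 = y₀)
    (loc : ∀ j, IsLocalHomeomorphOn π (π ⁻¹' (S j).mid))
    (fin0 : ∀ j, (π ⁻¹' {(S j).f 0}).Finite) (fin1 : ∀ j, (π ⁻¹' {(S j).g 0}).Finite)
    (hol : ∀ (j : J) (e : C(ℂ, X)) (m : ℕ), 0 < m → (∀ w, π (e w) = (S j).f (w ^ m)) →
      ContMDiff 𝓘(ℂ) 𝓘(ℂ, E) ω e)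
    (tower : ∀ N : ℕ, ∃ (Z : Type) (_ : TopologicalSpace Z) (q : Z → X) (_ : IsCoveringMap q)
      (z₀ : Z) (T : Finset Z), π (q z₀) = y₀ ∧ N ≤ T.card ∧
        ∀ z ∈ T, Orb S (fun z => π (q z)) z₀ z) :
    (∃ (V : Type) (_ : TopologicalSpace V) (_ : ChartedSpace E V) (p : V → X),
      T2Space V ∧ SimplyConnectedSpace V ∧ IsManifold 𝓘(ℂ, E) ω V ∧ IsHolomorphicCovering E p ∧
      ¬ HolomorphicallyConvex E V) ∧
    ∀ (V : Type) [TopologicalSpace V] [ChartedSpace E V] [SimplyConnectedSpace V] (p : V → X),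
      IsHolomorphicCovering E p → ¬ HolomorphicallyConvex E V := by
  have cov : ∀ j, IsCoveringMapOn π (S j).mid := fun j =>
    IsCoveringMapOn.of_isLocalHomeomorphOn hπ (loc j)
  obtain ⟨j0⟩ := ‹Nonempty J›
  have fin : (π ⁻¹' {y₀}).Finite := by
    have h1 : (S j0).f 1 ∈ (S j0).mid := ⟨1, one_ne_zero, rfl⟩
    have h2 := (cov j0 _ h1)
    have h3 : IsCompact (π ⁻¹' {(S j0).f 1}) := (isClosed_singleton.preimage hπ).isCompact
    have := h2.discreteTopology_fiber
    rw [← hy j0]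
    exact h3.finite (isDiscrete_iff_discreteTopology.2 this)
  obtain ⟨α, m, hm, -, hα, -, hch⟩ := exists_curves hπ.isClosedMap hy cov fin fin0 fin1
  refine H673.not_convex_entire_universal (ι := J × (π ⁻¹' {y₀})) (α := fun i => (α i).f)
    (α' := fun i => (α i).g) (D := π ⁻¹' {y₀}) (fun i => hol i.1 _ (m i) (hm i) (hα i))
    (fun i w hw => (α i).h' hw) fin fun N => ?_
  obtain ⟨Z, _, q, hq, z₀, T, h0, hN, hT⟩ := tower N
  refine ⟨Z, inferInstance, q, hq, z₀, T, h0, hN, fun z hz => ?_⟩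
  exact hch hq h0 (hT z hz)

end Vale.Agent.P300.H839
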