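import Vale.Agent.P300.H839.Chains
import Vale.Agent.P300.H354.Lev

/-!
# P300, block [D3]: from the charts at the three nodes (`Curve.Lev`, all levels) to `H232.Chains`

No geometry: `X`, `Y`, the total spaces `Z` and the charts `H0` (chart 5), `H1` (chart 6),
`H2` (chart X) are hypotheses.
-/

open Topology Filter Set
open scoped Manifold ContDiff

namespace Vale.Agent.P300.H839

open Vale.Agent.P300.H753 (Om pw)
open Vale.Agent.P300.H142 (R)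
open Vale.Agent.P300.Curve

theorem zero_mem_Om : ((0 : ℂ), (0 : ℂ)) ∈ Om R 1 1 := by
  refine (mem_Om_left (m := 1) one_ne_zero).2 ((mem_slit_iff).2 ?_)
  simp

/-- **D3, abstract form**: charts at the three nodes for all levels, `⇒ H232.Chains`. -/
theorem chains_of_lev {E : Type} [NormedAddCommGroup E] [NormedSpace ℂ E]
    {X : Type} [TopologicalSpace X] [T2Space X] [CompactSpace X] [ChartedSpace E X]
    {Y : Type*} [TopologicalSpace Y] [T2Space Y] {π : X → Y} (hπ : Continuous π)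
    (Sf : Bool → Sph Y) {k5 k6 kX : ℂ × ℂ → Y}
    (fin0 : ∀ b, (π ⁻¹' {(Sf b).f 0}).Finite) (fin1 : ∀ b, (π ⁻¹' {(Sf b).g 0}).Finite)
    (fin5 : (π ⁻¹' {k5 (0, 0)}).Finite)
    (f1 : ∀ w : ℂ, (w, 0) ∈ R → (Sf false).f w = k6 (w, 0))
    (f0 : ∀ w : ℂ, (1 - w, 0) ∈ R → (Sf false).f w = k5 (1 - w, 0))
    (f1' : ∀ w : ℂ, (0, w) ∈ R → (Sf true).f w = kX (0, w))
    (f0' : ∀ w : ℂ, (0, 1 - w) ∈ R → (Sf true).f w = k5 (0, 1 - w))
    {S : Type} {m : ℕ} {c c' : Equiv.Perm S} {H0 H1 H2 : S → ℂ × ℂ → X}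
    (h : Lev X S m c c' H0 H1 H2)
    (p0 : ∀ s, ∀ x ∈ Om R 1 1, π (H0 s x) = k5 x)
    (p1 : ∀ s, ∀ x ∈ Om R m 1, π (H1 s x) = k6 (pw m 1 x))
    (p2 : ∀ s, ∀ x ∈ Om R 1 m, π (H2 s x) = kX (pw 1 m x))
    (hol : ∀ (b : Bool) (e : C(ℂ, X)), (∀ w, π (e w) = (Sf b).f (w ^ m)) →
      ContMDiff 𝓘(ℂ) 𝓘(ℂ, E) ω e)
    (tower : ∀ N : ℕ, ∃ (Z : Type) (_ : TopologicalSpace Z) (q : Z → X) (_ : IsCoveringMap q)
      (S' : Type) (φ : S' → S) (d d' : Equiv.Perm S') (G0 G1 G2 : S' → ℂ × ℂ → Z)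
      (_ : Lev Z S' m d d' G0 G1 G2) (s₀ : S') (T : Finset S'),
      (∀ s, φ (d s) = c (φ s)) ∧ (∀ s, φ (d' s) = c' (φ s)) ∧
      (∀ s, ∀ x ∈ Om R 1 1, q (G0 s x) = H0 (φ s) x) ∧
      (∀ s, ∀ x ∈ Om R m 1, q (G1 s x) = H1 (φ s) x) ∧
      (∀ s, ∀ x ∈ Om R 1 m, q (G2 s x) = H2 (φ s) x) ∧
      InjOn (fun s => G0 s (0, 0)) T ∧ N ≤ T.card ∧
      ∀ t ∈ T, ∃ g ∈ Subgroup.closure ({d, d'} : Set (Equiv.Perm S')), g s₀ = t) :
    H232.Chains E X := by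
  have hE : ∀ b s w, π (h.E b s w) = (Sf b).f (w ^ m) :=
    fun b s w => h.E_proj (f := fun b => (Sf b).f) p0 p1 p2 f1 f0 f1' f0' b s w
  refine chains_of_curves' hπ fin0 fin1 (fun b s => h.E b s) (fun _ => m)
    (fun _ => Nat.pos_of_ne_zero h.hm) hE (fun b s => hol b _ (hE b s)) fin5 fun N => ?_
  obtain ⟨Z, _, q, hq, S', φ, d, d', G0, G1, G2, h', s₀, T, hd, hd', q0, q1, q2, hinj, hN, hT⟩ :=
    tower N
  refine ⟨Z, inferInstance, q, hq, S', φ, fun b s => h'.E b s, fun s => G0 s (0, 0), cc d d', s₀,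
    T, hinj, ?_, ?_, ?_, hN, ?_⟩
  · intro b s w
    exact h'.E_map h hd hd' q0 q1 q2 b s w
  · intro b s k
    exact h'.E_node b s k
  · intro s
    show π (q (G0 s (0, 0))) = k5 (0, 0)
    rw [q0 s _ zero_mem_Om, p0 _ _ zero_mem_Om]
  · intro t ht
    obtain ⟨g, hg, hgt⟩ := hT t ht
    refine ⟨g, ?_, hgt⟩
    refine (Subgroup.closure_mono ?_) hg
    rintro x (rfl | rfl)
    · exact ⟨false, rfl⟩
    · exact ⟨true, rfl⟩

end Vale.Agent.P300.H839
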