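import Vale.Agent.P300.H839.Final

/-!
# P300, block [CURVE], part 4: the version with a set of good nodes

`X → Y` may be ramified over other components above the two rational curves of `Y`; only the
lifts through the good nodes `N` are needed, and `π` is injective near every point of these lifts.
-/

open Topology Filter Set
open scoped Manifold ContDiff

namespace Vale.Agent.P300.H839

variable {X Y : Type*} [TopologicalSpace X] [TopologicalSpace Y] {π : X → Y}

omit [TopologicalSpace Y] in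
/-- uniqueness of lifts along which `π` is locally injective -/
theorem eq_of_inj [T2Space X] {A : Type*} [TopologicalSpace A] [PreconnectedSpace A] {L M : C(A, X)}
    (hLM : ∀ z, π (L z) = π (M z)) (inj : ∀ z, ∃ U ∈ 𝓝 (L z), InjOn π U) {z0 : A}
    (h0 : L z0 = M z0) : L = M := by
  have hcl : IsClosed {z | L z = M z} := isClosed_eq L.continuous M.continuous
  have hop : IsOpen {z | L z = M z} := by
    rw [isOpen_iff_mem_nhds]
    intro z hz
    have hz' : L z = M z := hz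
    obtain ⟨U, hU, hi⟩ := inj z
    filter_upwards [L.continuous.continuousAt hU, M.continuous.continuousAt (hz' ▸ hU)]
      with w hw1 hw2
    exact hi hw1 hw2 (hLM w)
  have huniv : {z | L z = M z} = univ := IsClopen.eq_univ ⟨hcl, hop⟩ ⟨z0, h0⟩
  ext z
  have : z ∈ {z | L z = M z} := huniv ▸ mem_univ z
  exact this

/-- period of a locally injective lift whose values at `2πi ℤ` are in a finite set -/
theorem exists_period_of_inj [T2Space X] {S : Sph Y} {L : C(ℂ, X)}
    (hL : ∀ z, π (L z) = S.f (Complex.exp z)) (inj : ∀ z, ∃ U ∈ 𝓝 (L z), InjOn π U)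
    {N : Set X} (fin : N.Finite) (hN : ∀ k : ℤ, L (k * (2 * Real.pi * Complex.I)) ∈ N) :
    ∃ m : ℕ, 0 < m ∧ Function.Periodic L (m * (2 * Real.pi * Complex.I)) := by
  have hmem : ∀ k : ℕ, L (k * (2 * Real.pi * Complex.I)) ∈ N := fun k => by
    have := hN k
    simpa using this
  obtain ⟨a, _, b, _, hab, heq⟩ := infinite_univ.exists_ne_map_eq_of_mapsTo
    (f := fun k : ℕ => L (k * (2 * Real.pi * Complex.I))) (fun k _ => hmem k) fin
  wlog hlt : a < b generalizing a b
  · exact this b trivial a trivial hab.symm heq.symm (lt_of_le_of_ne (not_lt.1 hlt) hab.symm)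
  refine ⟨b - a, Nat.sub_pos_of_lt hlt, ?_⟩
  have hs := eq_of_inj (L := L)
    (M := L.comp ⟨fun z => z + (b - a : ℕ) * (2 * Real.pi * Complex.I), by fun_prop⟩)
    (π := π) (fun z => ?_) inj (z0 := a * (2 * Real.pi * Complex.I)) ?_
  · intro z
    exact (DFunLike.congr_fun hs z).symm
  · simp only [ContinuousMap.comp_apply, ContinuousMap.coe_mk, hL]
    rw [Complex.exp_add, Complex.exp_nat_mul_two_pi_mul_I, mul_one]
  · simp only [ContinuousMap.comp_apply, ContinuousMap.coe_mk]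
    have h1 : (a : ℂ) * (2 * Real.pi * Complex.I) + (b - a : ℕ) * (2 * Real.pi * Complex.I)
        = b * (2 * Real.pi * Complex.I) := by
      rw [Nat.cast_sub hlt.le]; ring
    rw [h1]; exact heq

/-- **Curves through the good nodes.** -/
theorem exists_curves_good [T2Space X] (hπ : IsClosedMap π) {J : Type*} {S : J → Sph Y}
    {N : Set X} (fin : N.Finite)
    (lift : ∀ x ∈ N, ∀ j, ∃ L : C(ℂ, X), L 0 = x ∧ (∀ z, π (L z) = (S j).f (Complex.exp z)) ∧
      (∀ k : ℤ, L (k * (2 * Real.pi * Complex.I)) ∈ N) ∧ ∀ z, ∃ U ∈ 𝓝 (L z), InjOn π U)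
    (fin0 : ∀ j, (π ⁻¹' {(S j).f 0}).Finite) (fin1 : ∀ j, (π ⁻¹' {(S j).g 0}).Finite) :
    ∃ (α : J × N → Sph X) (m : J × N → ℕ),
      (∀ i, 0 < m i) ∧ (∀ i, (α i).f 1 = i.2) ∧
      (∀ i w, π ((α i).f w) = (S i.1).f (w ^ m i)) ∧
      (∀ i w, π ((α i).g w) = (S i.1).g (w ^ m i)) ∧
      (∀ i w, w ≠ 0 → ∃ U ∈ 𝓝 ((α i).f w), InjOn π U) ∧
      ∀ {Z : Type*} [TopologicalSpace Z] {q : Z → X} (_ : IsCoveringMap q) {z₀ : Z}
        (_ : q z₀ ∈ N) {z : Z} (_ : Orb S (fun z => π (q z)) z₀ z),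
        H527.Chn (A := fun _ => ℂ) (fun i => (α i).f) q z₀ z ∧ q z ∈ N := by
  have hL' : ∀ i : J × N, ∃ L : C(ℂ, X), L 0 = i.2 ∧
      (∀ z, π (L z) = (S i.1).f (Complex.exp z)) ∧
      (∀ k : ℤ, L (k * (2 * Real.pi * Complex.I)) ∈ N) ∧ ∀ z, ∃ U ∈ 𝓝 (L z), InjOn π U := fun i =>
    lift i.2 i.2.2 i.1
  choose L hL0 hL hLN inj using hL'
  have hm := fun i => exists_period_of_inj (hL i) (inj i) fin (hLN i)
  choose m hm hmL using hm
  have he := fun i => exists_sph_of_periodic hπ (fin0 i.1) (fin1 i.1) (hL i) (hm i) (hmL i)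
  choose α hα hα1 hα2 using he
  refine ⟨α, m, hm, fun i => ?_, hα1, hα2, fun i w hw => ?_, ?_⟩
  · have := hα i 0
    simpa [hL0] using this
  · have := hα i (Complex.log w)
    rw [Complex.exp_log hw] at this
    rw [this]
    exact inj i _
  intro Z _ q hq z₀ hz₀ z hz
  have key : ∀ (j : J) (M : C(ℂ, Z)) (hM : ∀ z, π (q (M z)) = (S j).f (Complex.exp z)) (a : ℤ)
      (hx : q (M (a * (2 * Real.pi * Complex.I))) ∈ N) (z : ℂ),
      q (M (z + a * (2 * Real.pi * Complex.I))) = L (j, ⟨_, hx⟩) z := by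
    intro j M hM a hx z
    have h1 := eq_of_inj (π := π) (L := L (j, ⟨_, hx⟩))
      (M := ⟨fun z => q (M (z + a * (2 * Real.pi * Complex.I))), by
        exact hq.continuous.comp (M.continuous.comp (by fun_prop))⟩)
      (fun z => ?_) (inj _) (z0 := 0) ?_
    · exact (DFunLike.congr_fun h1 z).symm
    · simp only [ContinuousMap.coe_mk, hL, hM]
      rw [Complex.exp_add, Complex.exp_int_mul_two_pi_mul_I, mul_one]
    · rw [hL0]
      simp only [ContinuousMap.coe_mk, zero_add]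
  induction hz with
  | base => exact ⟨H527.Chn.base, hz₀⟩
  | step j M hM a b _ ih =>
    obtain ⟨ih, hx⟩ := ih
    set i : J × N := (j, ⟨_, hx⟩) with hi
    let M' : C(ℂ, Z) := M.comp ⟨fun z => z + a * (2 * Real.pi * Complex.I), by fun_prop⟩
    have hM' : ∀ z, M' z = M (z + a * (2 * Real.pi * Complex.I)) := fun z => rfl
    have h2 : ∀ z, q (M' z) = L i z := fun z => key j M hM a hx z
    obtain ⟨E, hE, hE'⟩ := lift_sph hq (α i) M' fun z => by rw [h2, hα]
    have hmi : (m i : ℂ) ≠ 0 := Nat.cast_ne_zero.2 (hm i).ne'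
    have ha : M (a * (2 * Real.pi * Complex.I)) = E (Complex.exp 0) := by
      rw [hE', hM', mul_zero, zero_add]
    have hb : M (b * (2 * Real.pi * Complex.I)) =
        E (Complex.exp ((b - a) * (2 * Real.pi * Complex.I) / m i)) := by
      rw [hE', hM', mul_div_cancel₀ _ hmi]
      congr 1; ring
    refine ⟨?_, ?_⟩
    · rw [ha] at ih
      rw [hb]
      exact H527.Chn.step (A := fun _ => ℂ) (α := fun i => (α i).f) i E hE _ _ ih
    · have h3 := key j M hM a hx ((b - a : ℤ) * (2 * Real.pi * Complex.I))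
      have h4 : ((b - a : ℤ) : ℂ) * (2 * Real.pi * Complex.I) + a * (2 * Real.pi * Complex.I)
          = b * (2 * Real.pi * Complex.I) := by push_cast; ring
      rw [h4] at h3
      rw [h3]
      exact hLN _ _

/-- **End of the proof from the monodromy orbits of the good nodes.** -/
theorem end_of_orbits_good {E : Type*} [NormedAddCommGroup E] [NormedSpace ℂ E]
    [FiniteDimensional ℂ E]
    {X : Type} [TopologicalSpace X] [T2Space X] [CompactSpace X] [ConnectedSpace X]
    [ChartedSpace E X] [IsManifold 𝓘(ℂ, E) ω X]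
    {Y : Type*} [TopologicalSpace Y] [T2Space Y] {π : X → Y} (hπ : Continuous π)
    {J : Type*} {S : J → Sph Y} {N : Set X} (fin : N.Finite)
    (lift : ∀ x ∈ N, ∀ j, ∃ L : C(ℂ, X), L 0 = x ∧ (∀ z, π (L z) = (S j).f (Complex.exp z)) ∧
      (∀ k : ℤ, L (k * (2 * Real.pi * Complex.I)) ∈ N) ∧ ∀ z, ∃ U ∈ 𝓝 (L z), InjOn π U)
    (fin0 : ∀ j, (π ⁻¹' {(S j).f 0}).Finite) (fin1 : ∀ j, (π ⁻¹' {(S j).g 0}).Finite)
    (hol : ∀ (j : J) (e : C(ℂ, X)) (m : ℕ), 0 < m → (∀ w, π (e w) = (S j).f (w ^ m)) →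
      (∀ w, w ≠ 0 → ∃ U ∈ 𝓝 (e w), InjOn π U) → ContMDiff 𝓘(ℂ) 𝓘(ℂ, E) ω e)
    (tower : ∀ n : ℕ, ∃ (Z : Type) (_ : TopologicalSpace Z) (q : Z → X) (_ : IsCoveringMap q)
      (z₀ : Z) (T : Finset Z), q z₀ ∈ N ∧ n ≤ T.card ∧
        ∀ z ∈ T, Orb S (fun z => π (q z)) z₀ z) :
    (∃ (V : Type) (_ : TopologicalSpace V) (_ : ChartedSpace E V) (p : V → X),
      T2Space V ∧ SimplyConnectedSpace V ∧ IsManifold 𝓘(ℂ, E) ω V ∧ IsHolomorphicCovering E p ∧
      ¬ HolomorphicallyConvex E V) ∧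
    ∀ (V : Type) [TopologicalSpace V] [ChartedSpace E V] [SimplyConnectedSpace V] (p : V → X),
      IsHolomorphicCovering E p → ¬ HolomorphicallyConvex E V := by
  obtain ⟨α, m, hm, -, hα, -, hinj, hch⟩ := exists_curves_good hπ.isClosedMap fin lift fin0 fin1
  refine H673.not_convex_entire_universal (ι := J × N) (α := fun i => (α i).f)
    (α' := fun i => (α i).g) (D := N)
    (fun i => hol i.1 _ (m i) (hm i) (hα i) (hinj i))
    (fun i w hw => (α i).h' hw) fin fun n => ?_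
  obtain ⟨Z, _, q, hq, z₀, T, h0, hn, hT⟩ := tower n
  refine ⟨Z, inferInstance, q, hq, z₀, T, h0, hn, fun z hz => ?_⟩
  exact hch hq h0 (hT z hz)

end Vale.Agent.P300.H839
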