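import Vale.Agent.P300.H839.Curve
import Vale.Agent.P300.H527.Chain

/-!
# P300, block [CURVE], part 2: from monodromy orbits of node points to chain classes

`X` compact Hausdorff, `π : X → Y` with finite fibres at the marked points of finitely many spheres
`S j : Sph Y` through one point `y₀ = (S j).f 1`, a covering over the parts `(S j).mid`.
`Orb` is the set of end points of lifts of the loops `t ↦ (S j).f (exp (2πi t))` (at `y₀`).
`exists_curves`: a finite family of rational curves in `X` (pairs of maps of the plane) such that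
orbits in every covering `Z → X` are contained in chain classes.
-/

open Topology Filter Set

namespace Vale.Agent.P300.H839

noncomputable section

variable {X Y : Type*} [TopologicalSpace X] [TopologicalSpace Y] {J : Type*}

/-- node points reached from `z₀` by lifting the loops `t ↦ (S j).f (exp (2πi t))`, at any integer
time -/
inductive Orb (S : J → Sph Y) {Z : Type*} [TopologicalSpace Z] (p : Z → Y) (z₀ : Z) : Z → Prop
  | base : Orb S p z₀ z₀
  | step (j : J) (M : C(ℂ, Z)) (hM : ∀ z, p (M z) = (S j).f (Complex.exp z)) (a b : ℤ) :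
      Orb S p z₀ (M (a * (2 * Real.pi * Complex.I))) → Orb S p z₀ (M (b * (2 * Real.pi * Complex.I)))

theorem Orb.proj {S : J → Sph Y} {Z : Type*} [TopologicalSpace Z] {p : Z → Y} {z₀ z : Z} {y : Y}
    (h : Orb S p z₀ z) (h0 : p z₀ = y) (hy : ∀ j, (S j).f 1 = y) : p z = y := by
  induction h with
  | base => exact h0
  | step j M hM a b _ _ => rw [hM, Complex.exp_int_mul_two_pi_mul_I, hy]

/-- the lift of a sphere `e` of `X` to a covering, compared with the lift of `ζ ↦ e (exp (ζ / m))` -/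
theorem lift_sph {Z : Type*} [TopologicalSpace Z] {q : Z → X} (hq : IsCoveringMap q) (e : Sph X)
    {m : ℕ} (M : C(ℂ, Z)) (hM : ∀ z, q (M (m * z)) = e.f (Complex.exp z)) :
    ∃ E : C(ℂ, Z), q ∘ E = e.f ∧ ∀ z, E (Complex.exp z) = M (m * z) := by
  obtain ⟨E, ⟨hE0, hE⟩, -⟩ := hq.existsUnique_continuousMap_lifts e.f 1 (M 0) (by
    have := hM 0
    simpa using this)
  refine ⟨E, hE, fun z => ?_⟩
  have h1 := hq.eq_of_comp_eq (g₁ := fun z => E (Complex.exp z)) (g₂ := fun z => M (m * z))
    (by fun_prop) (by fun_prop) (by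
      funext z
      have := congrFun hE (Complex.exp z)
      simp only [Function.comp_apply] at this ⊢
      rw [this, hM z]) 0 (by simpa using hE0)
  exact congrFun h1 z

/-- **Curves.** -/
theorem exists_curves [T2Space X] {π : X → Y} (hπ : IsClosedMap π) {S : J → Sph Y} {y₀ : Y}
    (hy : ∀ j, (S j).f 1 = y₀) (cov : ∀ j, IsCoveringMapOn π (S j).mid)
    (fin : (π ⁻¹' {y₀}).Finite) (fin0 : ∀ j, (π ⁻¹' {(S j).f 0}).Finite)
    (fin1 : ∀ j, (π ⁻¹' {(S j).g 0}).Finite) :
    ∃ (α : J × (π ⁻¹' {y₀}) → Sph X) (m : J × (π ⁻¹' {y₀}) → ℕ),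
      (∀ i, 0 < m i) ∧ (∀ i, (α i).f 1 = i.2) ∧
      (∀ i w, π ((α i).f w) = (S i.1).f (w ^ m i)) ∧
      (∀ i w, π ((α i).g w) = (S i.1).g (w ^ m i)) ∧
      ∀ {Z : Type*} [TopologicalSpace Z] {q : Z → X} (_ : IsCoveringMap q) {z₀ : Z}
        (_ : π (q z₀) = y₀) {z : Z} (_ : Orb S (fun z => π (q z)) z₀ z),
        H527.Chn (A := fun _ => ℂ) (fun i => (α i).f) q z₀ z ∧ π (q z) = y₀ := by
  have hL : ∀ i : J × (π ⁻¹' {y₀}), ∃ L : C(ℂ, X), L 0 = i.2 ∧
      ∀ z, π (L z) = (S i.1).f (Complex.exp z) := fun i =>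
    exists_lift (cov i.1) (by rw [hy]; exact i.2.2)
  choose L hL0 hL using hL
  have hm : ∀ i : J × (π ⁻¹' {y₀}), ∃ m : ℕ, 0 < m ∧
      L i (m * (2 * Real.pi * Complex.I)) = L i 0 := fun i =>
    exists_period (cov i.1) (hL i) (by rw [hy]; exact fin)
  choose m hm hmL using hm
  have he := fun i => exists_sph hπ (cov i.1) (fin0 i.1) (fin1 i.1) (hL i) (hm i) (hmL i)
  choose α hα hα1 hα2 using he
  refine ⟨α, m, hm, fun i => ?_, hα1, hα2, ?_⟩
  · have := hα i 0
    simpa [hL0] using this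
  intro Z _ q hq z₀ hz₀ z hz
  refine ⟨?_, hz.proj hz₀ hy⟩
  induction hz with
  | base => exact H527.Chn.base
  | step j M hM a b _ ih =>
    -- the node `x = q (M (2πi a))`
    set x : X := q (M (a * (2 * Real.pi * Complex.I))) with hx
    have hxy : π x = y₀ := by rw [hx, hM, Complex.exp_int_mul_two_pi_mul_I, hy]
    let i : J × (π ⁻¹' {y₀}) := ⟨j, ⟨x, hxy⟩⟩
    -- shifted lift
    let M' : C(ℂ, Z) := M.comp ⟨fun z => z + a * (2 * Real.pi * Complex.I), by fun_prop⟩
    have hM' : ∀ z, M' z = M (z + a * (2 * Real.pi * Complex.I)) := fun z => rfl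
    have h1 : (⟨fun z => q (M' z), hq.continuous.comp M'.continuous⟩ : C(ℂ, X)) = L i := by
      refine lift_unique (cov j) (z0 := 0) (fun z => ?_) (hL i) ?_
      · simp only [ContinuousMap.coe_mk, hM', hM]
        rw [Complex.exp_add, Complex.exp_int_mul_two_pi_mul_I, mul_one]
      · rw [hL0]
        simp only [ContinuousMap.coe_mk, hM', zero_add]
        rfl
    have h2 : ∀ z, q (M' z) = L i z := fun z => DFunLike.congr_fun h1 z
    obtain ⟨E, hE, hE'⟩ := lift_sph hq (α i) M' fun z => by rw [h2, hα]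
    have hmi : (m i : ℂ) ≠ 0 := Nat.cast_ne_zero.2 (hm i).ne'
    have ha : M (a * (2 * Real.pi * Complex.I)) = E (Complex.exp 0) := by
      rw [hE', hM', mul_zero, zero_add]
    have hb : M (b * (2 * Real.pi * Complex.I)) =
        E (Complex.exp ((b - a) * (2 * Real.pi * Complex.I) / m i)) := by
      rw [hE', hM', mul_div_cancel₀ _ hmi]
      congr 1; ring
    rw [ha] at ih
    rw [hb]
    exact H527.Chn.step (A := fun _ => ℂ) (α := fun i => (α i).f) i E hE _ _ ih

end

end Vale.Agent.P300.H839
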